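import Crest.Agent.N222.B.Defs2
import Crest.Prelude.Def_SubmanifoldWidth

/-!
# Row 228, the outer layer (helper92): FROZEN definitions and top statements

`Len M` : the distance of `X` is the length distance of the immersion `M`.
`Cov X k C` : a locally finite closed cover of multiplicity `≤ k + 1` and mesh `≤ C`.
`Width n C` : the theorem in the language of `Imm`.
-/

set_option autoImplicit false
open MeasureTheory Set Filter Topology Function
open scoped ContDiff

noncomputable section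

namespace Crest.Agent.N228
open Crest.Agent.N222

/-- the distance of `X` is the length distance of `M` -/
structure Len {d : ℕ} {ι : Type} [Fintype ι] {X : Type} [MetricSpace X] (M : Imm d ι X) : Prop where
  chord : ∀ p q, ‖M.x p - M.x q‖ ≤ dist p q
  loc : ∀ p, ∀ ε : ℝ, 0 < ε → ∃ N ∈ 𝓝 p, ∀ q ∈ N, ∀ q' ∈ N, dist q q' ≤ (1 + ε) * ‖M.x q - M.x q'‖
  geo : ∀ p q, ∀ ε : ℝ, 0 < ε → ∃ (γ : ℝ → X) (l : ℝ → ℝ), Continuous γ ∧ Continuous l ∧
    γ 0 = p ∧ γ 1 = q ∧ l 0 = 0 ∧ l 1 ≤ dist p q + ε ∧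
    ∀ s t, 0 ≤ s → s ≤ t → t ≤ 1 → dist (γ s) (γ t) ≤ l t - l s

/-- a locally finite closed cover of multiplicity at most `k + 1` by sets of diameter at most `C` -/
def Cov (X : Type) [MetricSpace X] (k : ℕ) (C : ℝ) : Prop :=
  ∃ (κ : Type) (A : κ → Set X), (∀ i, IsClosed (A i)) ∧ LocallyFinite A ∧ (∀ p, ∃ i, p ∈ A i) ∧
    (∀ p (s : Finset κ), (∀ i ∈ s, p ∈ A i) → s.card ≤ k + 1) ∧
    ∀ i, ∀ p ∈ A i, ∀ q ∈ A i, dist p q ≤ C

/-- quantify over complete connected manifolds of dimension `n` with their length distance -/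
def AllLen (n : ℕ) (Q : ∀ (ι : Type) [Fintype ι] [DecidableEq ι] (X : Type) [MetricSpace X]
    [ProperSpace X] [MeasurableSpace X] [BorelSpace X], Imm n ι X → Prop) : Prop :=
  ∀ (ι : Type) [Fintype ι] [DecidableEq ι] (X : Type) [MetricSpace X] [ProperSpace X]
    [MeasurableSpace X] [BorelSpace X] [ConnectedSpace X] (M : Imm n ι X),
    Injective M.x → Len M → Q ι X M

/-- the theorem for `Imm` -/
def Width (n : ℕ) (C : ℝ) : Prop :=
  AllLen n fun _ _ _ X _ _ _ _ M => M.Form (fun _ => 1) → Cov X (n - 2) C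

/-- **n = 3** (helper71) -/
def N3Stmt : Prop := Width 3 499

/-- **all dimensions** -/
def GenStmt : Prop := ∀ n : ℕ, 3 ≤ n → ∃ C : ℝ, Width n C


/-- Lipschitz functions are limits of smooth functions with almost the same gradient bound -/
def AppStmt : Prop := ∀ n, AllLen n fun _ _ _ X _ _ _ _ M => ∀ (f : X → ℝ) (ε : ℝ), 0 < ε →
  (∀ p q, |f p - f q| ≤ dist p q) →
  ∃ g, M.Sm g ∧ ∀ p, |g p - f p| ≤ ε ∧ M.pre.gam g g p ≤ (1 + ε) ^ 2

/-- the nerve map -/
def NerveStmt : Prop := ∀ (X : Type) [MetricSpace X] (k : ℕ) (C ε : ℝ), 0 < ε → Cov X k C →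
  ∃ (κ : Type) (K : Set (Finset κ)) (F : X → κ → ℝ),
    Crest.GeometryTopology.Submanifold.IsSimplicialComplexOfDim K k ∧ Continuous F ∧
    (∀ p, F p ∈ Crest.GeometryTopology.Submanifold.polyhedron K) ∧
    ∀ p q, F p = F q → dist p q ≤ C + ε

/-- the priority rule: signs with few common zeros give a cover -/
def SignStmt : Prop := ∀ (X : Type) [MetricSpace X] (k : ℕ) (C : ℝ) (s : ℕ → X → ℝ),
  (∀ c, Continuous (s c)) → (LocallyFinite fun c => {p | 0 ≤ s c p}) → (∀ p, ∃ c, 0 < s c p) →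
  (∀ p (t : Finset ℕ), (∀ c ∈ t, s c p = 0) → t.card ≤ k) →
  (∀ c p q, 0 ≤ s c p → 0 ≤ s c q → dist p q ≤ C) → Cov X k C

open Crest.GeometryTopology.Submanifold in
/-- from the statement to `Imm` -/
def BridgeStmt : Prop := ∀ (n N : ℕ) (S : Set (EuclideanSpace ℝ (Fin N))),
  IsSubmanifold n N S → IsClosed S → IsConnected S →
  ∀ s : EuclideanSpace ℝ (Fin N) → ℝ, scalarField n N S s → SpectralScalarBound S n s 1 →
  ∃ (X : Type) (_ : MetricSpace X) (_ : ProperSpace X) (_ : MeasurableSpace X) (_ : BorelSpace X)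
    (_ : ConnectedSpace X) (M : Imm n (Fin N) X), IsEmbedding M.x ∧ range M.x = S ∧ Len M ∧
    M.Form (fun _ => 1) ∧ ∀ p q, dist p q = intrinsicDist S (M.x p) (M.x q)

end Crest.Agent.N228

end
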