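import Crest.Agent.N228.O.Same
import Crest.Agent.N228.G.Defs

/-!
# Row 228, the outer layer (helper92): transfer along an isometric open embedding
-/

set_option autoImplicit false
open MeasureTheory Set Filter Topology Function
open scoped ContDiff
open Crest.Agent.N222 Crest.Agent.N222.Imm

noncomputable section

namespace Crest.Agent.N228

variable {d : ℕ} {ι ι' κ : Type} [Fintype ι] [Fintype ι'] [Fintype κ] {X Y : Type}
  [TopologicalSpace X] [TopologicalSpace Y] {Z : Type} [NormedAddCommGroup Z] [NormedSpace ℝ Z]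
  {M : Imm d ι X} {N : Imm d ι' Y} {e : OpenPartialHomeomorph X Y} {p : X} {K U : Set X}

/-- extension by a constant -/
theorem exists_ext_const [T2Space X] (hU : IsOpen U) (hK : IsCompact K) (hKU : K ⊆ U) {f : X → Z}
    (hf : M.SmOn U f) {a : Z} (ha : ∀ p ∈ U, p ∉ K → f p = a) :
    ∃ g, M.Sm g ∧ (∀ p ∈ U, g p = f p) ∧ ∀ p ∉ K, g p = a := by
  classical
  have h2 : ∀ p ∉ K, U.piecewise f (fun _ => a) p = a := fun p hp => by
    by_cases h : p ∈ U
    · rw [piecewise_eq_of_mem _ _ _ h, ha p h hp]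
    · exact piecewise_eq_of_notMem _ _ _ h
  refine ⟨U.piecewise f fun _ => a, SmOn.sm fun p _ => ?_,
    fun p hp => piecewise_eq_of_mem _ _ _ hp, h2⟩
  by_cases h : p ∈ U
  · refine (hf p h).congr_of_eventuallyEq (symm_eventuallyEq (M.mem p) ?_)
    filter_upwards [hU.mem_nhds h] with q hq using piecewise_eq_of_mem _ _ _ hq
  · refine (contDiffAt_const (c := a)).congr_of_eventuallyEq
      (symm_eventuallyEq (g := fun _ => a) (M.mem p) ?_)
    filter_upwards [hK.isClosed.isOpen_compl.mem_nhds fun h' => h (hKU h')] with q hq using h2 q hq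

/-- `e` is an isometry -/
def Emb (M : Imm d ι X) (N : Imm d ι' Y) (e : OpenPartialHomeomorph X Y) : Prop :=
  ∃ (L : E ι →ₗᵢ[ℝ] E ι') (c : E ι'), ∀ p ∈ e.source, N.x (e p) = L (M.x p) + c

/-- `L ⊕ id` -/
def sumL (L : E ι →ₗᵢ[ℝ] E ι') (κ : Type) [Fintype κ] : E (ι ⊕ κ) →ₗᵢ[ℝ] E (ι' ⊕ κ) where
  toFun w := WithLp.toLp 2 (Sum.elim (fun a => L (WithLp.toLp 2 fun b => w (.inl b)) a)
    fun i => w (.inr i))
  map_add' w w' := by
    ext (a | i)
    · exact congrArg (· a) (L.map_add (WithLp.toLp 2 fun b => w (.inl b))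
        (WithLp.toLp 2 fun b => w' (.inl b)))
    · rfl
  map_smul' t w := by
    ext (a | i)
    · exact congrArg (· a) (L.map_smul t (WithLp.toLp 2 fun b => w (.inl b)))
    · rfl
  norm_map' w := by
    have := L.norm_map (WithLp.toLp 2 fun b => w (.inl b))
    rw [← sq_eq_sq₀ (norm_nonneg _) (norm_nonneg _)] at this ⊢
    simp only [EuclideanSpace.norm_sq_eq, Fintype.sum_sum_type] at this ⊢
    exact congrArg (· + _) this

/-- the first factor -/
def inlL (ι κ : Type) [Fintype ι] [Fintype κ] : E ι →ₗᵢ[ℝ] E (ι ⊕ κ) where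
  toFun w := WithLp.toLp 2 (Sum.elim (fun a => w a) fun _ => 0)
  map_add' w w' := by
    ext (a | i)
    · rfl
    · exact (add_zero _).symm
  map_smul' t w := by
    ext (a | i)
    · rfl
    · exact (mul_zero _).symm
  norm_map' w := by
    rw [← sq_eq_sq₀ (norm_nonneg _) (norm_nonneg _)]
    simp [EuclideanSpace.norm_sq_eq, Fintype.sum_sum_type]

theorem xt_x {y : κ → X → ℝ} (hy : ∀ i, M.Sm (y i)) (p : X) :
    (M.xt y).x p = WithLp.toLp 2 (Sum.elim (fun a => M.x p a) fun i => y i p) := by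
  ext (a | i)
  · rfl
  · exact if_pos hy

theorem xt_inj (hM : Injective M.x) (y : κ → X → ℝ) : Injective (M.xt y).x := fun p q h => hM <| by
  ext a
  exact congrArg (· (Sum.inl a)) h

/-- where the new coordinates are locally constant -/
theorem li_xt {y : κ → X → ℝ} (hy : ∀ i, M.Sm (y i)) {a : κ → ℝ}
    (h : ∀ᶠ q in 𝓝 p, ∀ i, y i q = a i) : Gr.LI M (M.xt y) id p := by
  refine ⟨inlL ι κ, WithLp.toLp 2 (Sum.elim (fun _ => 0) a), h.mono fun q hq =>
    ⟨continuousAt_id, ?_⟩⟩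
  rw [id, xt_x hy]
  ext (b | i)
  · exact (add_zero _).symm
  · exact (hq i).trans (zero_add _).symm

theorem same_xt [DecidableEq ι] [DecidableEq κ] {y : κ → X → ℝ} (hy : ∀ i, M.Sm (y i))
    (h : ∀ p ∈ U, ∃ a : κ → ℝ, ∀ᶠ q in 𝓝 p, ∀ i, y i q = a i) : Same M (M.xt y) U :=
  ⟨rfl, fun p hp f g _ _ => let ⟨_, ha⟩ := h p hp; ((li_xt hy ha).gam f g).symm⟩

namespace Emb

theorem of_up {N : Imm d (Option ι) Y} {c : ℝ} (h : ∀ p ∈ e.source, N.x (e p) = up c (M.x p)) :
    Emb M N e := by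
  classical
  refine ⟨⟨⟨⟨up 0, fun y y' => by rw [up_add, add_zero]⟩, fun t y => by
    rw [smul_up, RingHom.id_apply, mul_zero]⟩, fun y => ?_⟩, up c 0, fun p hp => ?_⟩
  · rw [← sq_eq_sq₀ (norm_nonneg _) (norm_nonneg _)]
    exact (norm_sq_up 0 y).trans (by ring)
  · rw [h p hp]
    exact ((up_add 0 c (M.x p) 0).trans (by rw [zero_add, add_zero])).symm


theorem li (h : Emb M N e) (hp : p ∈ e.source) : Gr.LI M N e p := by
  obtain ⟨L, c, h⟩ := h
  refine ⟨L, c, ?_⟩
  filter_upwards [e.open_source.mem_nhds hp] with q hq using ⟨e.continuousAt hq, h q hq⟩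

theorem smOn_pull (h : Emb M N e) {f : Y → Z} (hf : N.Sm f) :
    M.SmOn e.source fun p => f (e p) := fun _ hp => (h.li hp).contDiffAt hf

theorem smOn_push (h : Emb M N e) {f : X → Z} (hf : M.Sm f) :
    N.SmOn e.target fun y => f (e.symm y) := fun y hy => by
  obtain ⟨L, c, h⟩ := h
  exact (loc_of_mem (M := N) (N := Gr.amap M L c) (e := e.symm) (fun y hy => by
    rw [← e.right_inv hy, h _ (e.map_target hy), e.right_inv hy]
    rfl) hy).contDiffAt (f := f) hf

/-- pull back of a function which is constant off the image of `K` -/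
theorem pull [T2Space X] (h : Emb M N e) (hK : IsCompact K) (hKe : K ⊆ e.source) {f : Y → Z}
    (hf : N.Sm f) {a : Z} (ha : ∀ p ∈ e.source, p ∉ K → f (e p) = a) :
    ∃ g, M.Sm g ∧ (∀ p ∈ e.source, g p = f (e p)) ∧ ∀ p ∉ K, g p = a :=
  exists_ext_const e.open_source hK hKe (h.smOn_pull hf) ha

/-- push forward of a function which is constant off `K` -/
theorem push [T2Space Y] (h : Emb M N e) (hK : IsCompact K) (hKe : K ⊆ e.source) {f : X → Z}
    (hf : M.Sm f) {a : Z} (ha : ∀ p ∈ e.source, p ∉ K → f p = a) :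
    ∃ g, N.Sm g ∧ (∀ p ∈ e.source, g (e p) = f p) ∧ ∀ y ∉ e '' K, g y = a := by
  obtain ⟨g, h1, h2, h3⟩ := exists_ext_const (M := N) e.open_target
    (hK.image_of_continuousOn (e.continuousOn.mono hKe))
    (image_subset_iff.2 fun p hp => e.map_source (hKe hp)) (h.smOn_push hf) (a := a)
    fun y hy hy' => ha _ (e.map_target hy) fun h' => hy' ⟨_, h', e.right_inv hy⟩
  exact ⟨g, h1, fun p hp => by rw [h2 _ (e.map_source hp), e.left_inv hp], h3⟩

/-- pull back near a compact set -/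
theorem pull_near [T2Space X] [SecondCountableTopology X] (h : Emb M N e) (hK : IsCompact K)
    (hKe : K ⊆ e.source) {f : Y → Z} (hf : N.Sm f) :
    ∃ g, M.Sm g ∧ HasCompactSupport g ∧ ∀ p ∈ K, g =ᶠ[𝓝 p] fun q => f (e q) :=
  let ⟨g, h1, h2, _, h3⟩ := (h.smOn_pull hf).exists_sm e.open_source hK hKe
  ⟨g, h1, h2, eventually_nhdsSet_iff_forall.1 h3⟩

/-- push forward near a compact set -/
theorem push_near [T2Space Y] [SecondCountableTopology Y] (h : Emb M N e) (hK : IsCompact K)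
    (hKe : K ⊆ e.source) {f : X → Z} (hf : M.Sm f) :
    ∃ g, N.Sm g ∧ ∀ p ∈ K, f =ᶠ[𝓝 p] fun q => g (e q) := by
  obtain ⟨g, h1, -, -, h3⟩ := (h.smOn_push hf).exists_sm e.open_target
    (hK.image_of_continuousOn (e.continuousOn.mono hKe))
    (image_subset_iff.2 fun p hp => e.map_source (hKe hp))
  refine ⟨g, h1, fun p hp => ?_⟩
  filter_upwards [(e.continuousAt (hKe hp)).eventually
    (eventually_nhdsSet_iff_forall.1 h3 _ (mem_image_of_mem e hp)),
    e.open_source.mem_nhds (hKe hp)] with q h4 h5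
  rw [h4, e.left_inv h5]

/-- new coordinates -/
theorem xt (h : Emb M N e) {y : κ → X → ℝ} {y' : κ → Y → ℝ} (hy : ∀ i, M.Sm (y i))
    (hy' : ∀ i, N.Sm (y' i)) (hyy : ∀ i, ∀ p ∈ e.source, y i p = y' i (e p)) :
    Emb (M.xt y) (N.xt y') e := by
  obtain ⟨L, c, h⟩ := h
  refine ⟨sumL L κ, WithLp.toLp 2 (Sum.elim (fun a => c a) fun _ => 0), fun p hp => ?_⟩
  rw [xt_x hy, xt_x hy', h p hp]
  ext (a | i)
  · rfl
  · exact (hyy i p hp).symm.trans (add_zero _).symm

variable [DecidableEq ι] [DecidableEq ι']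

theorem gam (h : Emb M N e) (hp : p ∈ e.source) {f g : X → ℝ} {f' g' : Y → ℝ}
    (hf : f =ᶠ[𝓝 p] fun q => f' (e q)) (hg : g =ᶠ[𝓝 p] fun q => g' (e q)) :
    M.pre.gam f g p = N.pre.gam f' g' (e p) := (h.li hp).gam' hf hg

theorem norm_grad (h : Emb M N e) (hp : p ∈ e.source) {f : X → ℝ} {f' : Y → ℝ}
    (hf : f =ᶠ[𝓝 p] fun q => f' (e q)) : ‖M.grad f p‖ = ‖N.grad f' (e p)‖ := by
  rw [← sq_eq_sq₀ (norm_nonneg _) (norm_nonneg _), ← gam_self_eq, ← gam_self_eq, h.gam hp hf hf]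

theorem EF (h : Emb M N e) (hp : p ∈ e.source) {F : X → ℝ} {F' : Y → ℝ} (hF : N.Sm F')
    (hf : F =ᶠ[𝓝 p] fun q => F' (e q)) : M.pre.EF F p = N.pre.EF F' (e p) :=
  (h.li hp).EF' hF hf

omit [DecidableEq ι] [DecidableEq ι'] in
/-- equality on the source gives equality of germs -/
theorem ev {α : Type} (hp : p ∈ e.source) {f : X → α} {f' : Y → α}
    (h : ∀ q ∈ e.source, f q = f' (e q)) : f =ᶠ[𝓝 p] fun q => f' (e q) :=
  eventually_of_mem (e.open_source.mem_nhds hp) h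

end Emb

/-- **a weight on a compact part** -/
theorem exists_weight [DecidableEq ι] [T2Space X] [SecondCountableTopology X] [MeasurableSpace X]
    [BorelSpace X] {V : X → ℝ} (hV : Continuous V) (h : M.Form V) (hK : IsCompact K) {δ : ℝ}
    (hδ : 0 < δ) : ∃ F, M.Sm F ∧ ∀ p ∈ K, V p - δ ≤ M.pre.EF F p := by
  obtain ⟨Y, _, _, _, _, _, _, N, e, c, F, hKe, hx, hF, h1⟩ := Gr.close_up hV h hK hδ
  obtain ⟨g, hg, -, h2⟩ := (Emb.of_up hx).pull_near hK hKe hF
  exact ⟨g, hg, fun p hp => by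
    rw [(Emb.of_up hx).EF (hKe hp) hF (h2 p hp)]; exact h1 p (hKe hp)⟩

end Crest.Agent.N228

end
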