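import Crest.Agent.N228.O.Defs
import Crest.Agent.N222.T.Main
import Crest.Agent.N222.F.Meas
import Crest.Agent.N222.F.Bump
import Crest.Agent.N222.F.Res
import Crest.Agent.R241.AF2
import Crest.Agent.R208.G1
import Crest.Agent.R208.G2

-- ▼ part N228/O/Br1
section

/-!
# Row 228, bridge (helper55), part 1: the spectral hypothesis as `Form 1`
-/

set_option autoImplicit false
set_option linter.unusedSectionVars false
open MeasureTheory Set Filter Topology Function
open scoped ContDiff InnerProductSpace RealInnerProductSpace Manifold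
open Crest.GeometryTopology.Submanifold

noncomputable section

namespace Crest.Agent.N228.Br
open Crest.Agent.N222

section Emb

variable {d : ℕ} {ι X : Type} [Fintype ι] [TopologicalSpace X] (M : Imm d ι X)

/-- smooth functions on a closed embedded manifold extend -/
theorem exists_amb0 (hM : IsClosedEmbedding M.x) {z : X → ℝ} (hz : M.Sm z) :
    ∃ φ : E ι → ℝ, ContDiff ℝ ∞ φ ∧ ∀ p, φ (M.x p) = z p := by
  obtain ⟨g, hg⟩ := exists_contMDiffMap_forall_mem_convex_of_local (n := (⊤ : ℕ∞)) 𝓘(ℝ, E ι)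
    (t := fun y : E ι => {c : ℝ | ∀ p, M.x p = y → c = z p})
    (fun y a ha b hb s t _ _ hst p hp => by
      rw [ha p hp, hb p hp, smul_eq_mul, smul_eq_mul, ← add_mul, hst, one_mul])
    fun y => by
      by_cases hy : y ∈ range M.x
      · obtain ⟨p, rfl⟩ := hy
        obtain ⟨e, L, he, hp, -, h2, -⟩ := M.exists_proj_chart p
        obtain ⟨O, hO, h3⟩ := hM.isInducing.isOpen_iff.1 e.open_source
        set A : E ι → E (Fin d) := fun y =>
          ContinuousLinearMap.adjoint L.toContinuousLinearMap (y - M.x p) with hA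
        have hAc : ContDiff ℝ ∞ A :=
          (ContinuousLinearMap.contDiff _).comp (contDiff_id.sub contDiff_const)
        refine ⟨O ∩ A ⁻¹' e.target, (hO.inter (e.open_target.preimage hAc.continuous)).mem_nhds
          ⟨by rwa [← h3] at hp, by
            have := e.map_source hp
            rwa [h2 p] at this⟩,
          fun y => z (e.symm (A y)), ?_, ?_⟩
        · exact ((hz.chart he).comp hAc.contDiffOn fun _ h => h.2).contMDiffOn
        · rintro _ hq q rfl
          have h4 : q ∈ e.source := by rw [← h3]; exact hq.1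
          change z (e.symm (ContinuousLinearMap.adjoint L.toContinuousLinearMap _)) = _
          rw [← h2 q, e.left_inv h4]
      · exact ⟨(range M.x)ᶜ, hM.isClosed_range.isOpen_compl.mem_nhds hy, fun _ => 0,
          contMDiffOn_const, fun y hy p hp => absurd ⟨p, hp⟩ hy⟩
  exact ⟨g, g.contMDiff.contDiff, fun p => hg _ p rfl⟩

theorem exists_amb (hM : IsClosedEmbedding M.x) {z : X → ℝ} (hz : M.Tst z) :
    ∃ φ : E ι → ℝ, ContDiff ℝ ∞ φ ∧ HasCompactSupport φ ∧ ∀ p, φ (M.x p) = z p := by
  obtain ⟨g, hg, h1⟩ := exists_amb0 M hM hz.sm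
  obtain ⟨R, hR⟩ := (hz.cs.isCompact.image M.continuous_x).isBounded.subset_closedBall 0
  let χ : ContDiffBump (0 : E ι) := ⟨|R| + 1, |R| + 2, by positivity, by linarith⟩
  refine ⟨fun y => χ y * g y, χ.contDiff.mul hg, χ.hasCompactSupport.mul_right, fun p => ?_⟩
  by_cases h : z p = 0
  · simp [h1, h]
  · change χ _ * g _ = _
    rw [h1, χ.one_of_mem_closedBall (Metric.closedBall_subset_closedBall
      (by change R ≤ |R| + 1; linarith [le_abs_self R]) (hR ⟨p, subset_tsupport _ h, rfl⟩)), one_mul]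

variable [T2Space X] [SecondCountableTopology X] [MeasurableSpace X] [BorelSpace X]

theorem mu_eq (hM : IsClosedEmbedding M.x) : (μHE[d] : Measure (E ι)).comap M.x = M.mu := by
  have he : MeasurableEmbedding M.x := hM.measurableEmbedding
  refine Imm.eq_mu fun p => ⟨M.ch p, M.isChart p, M.mem p, ?_⟩
  ext s hs
  set e := M.ch p
  have hc := M.isChart p
  rw [Measure.restrict_apply hs, he.comap_apply, Ms0.cm_apply hc hs]
  have h1 := R241.AF.lintegral_image_eq (f := M.x ∘ e.symm) (f' := fderiv ℝ (M.x ∘ e.symm))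
    (Ms0.meas_pre e hs) (fun z hz => (hc.hasFDerivAt hz.1).hasFDerivWithinAt)
    (fun z hz w hw h => e.symm.injOn hz.1 hw.1 (hM.injective h)) fun _ => 1
  have h2 : (M.x ∘ e.symm) '' (e.target ∩ e.symm ⁻¹' s) = M.x '' (s ∩ e.source) := by
    rw [image_comp]
    congr 1
    ext q
    exact ⟨fun ⟨z, hz, h⟩ => h ▸ ⟨hz.2, e.map_target hz.1⟩, fun h => ⟨e q,
      ⟨e.map_source h.2, by rw [mem_preimage, e.left_inv h.2]; exact h.1⟩, e.left_inv h.2⟩⟩
  rw [h2, finrank_euclideanSpace_fin, setLIntegral_one] at h1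
  rw [h1]
  simp only [mul_one, jac_eq_normDet, R241.AF.jac]
  rfl

theorem integral_eq (hM : IsClosedEmbedding M.x) : ∃ c : ℝ, 0 ≤ c ∧ ∀ g : E ι → ℝ,
    ∫ p, g (M.x p) ∂M.mu = c * ∫ y in range M.x, g y ∂(μH[(d : ℝ)] : Measure (E ι)) := by
  have he : MeasurableEmbedding M.x := hM.measurableEmbedding
  refine ⟨(Measure.addHaarScalarFactor (volume : Measure (EuclideanSpace ℝ (Fin d))) μH[d] : NNReal),
    NNReal.coe_nonneg _, fun g => ?_⟩
  rw [← mu_eq M hM, ← he.integral_map, he.map_comap, Measure.euclideanHausdorffMeasure_def,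
    Measure.restrict_smul, integral_smul_nnreal_measure]
  rfl

end Emb

variable {n N : ℕ} {S : Set (Euc N)}

open Crest.Agent.N222.D Crest.Agent.R247 Crest.Agent.R202.Tens Crest.GeometryTopology.CoordMetric in
theorem exists_imm (hS : IsSubmanifold n N S) : ∃ M : Imm n (Fin N) S, M.x = Subtype.val ∧
    (∀ s, scalarField n N S s → ∀ q : S, M.pre.scal q = s q) ∧
    ∀ q : S, Submodule.span ℝ (tangentConeAt ℝ S q) =
      LinearMap.range (M.J q : Euc n →ₗ[ℝ] Euc N) := by
  obtain ⟨R, hR, -⟩ := sub n N S hS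
  refine ⟨T.immOf R Subtype.val (T.sub_sm hR) (T.sub_G hR), rfl, fun s hs q => ?_, fun q => ?_⟩
  · obtain ⟨p, f, V, h, hV, hG, hf⟩ := hR (R.idx q)
    have hy : R.c (R.idx q) q ∈ V := hV ▸ R.mem_target q
    have h1 : f (R.c (R.idx q) q) = q := by
      rw [← hf _ hy, (R.c _).left_inv (R.idx_mem q)]
    rw [hs q q.2 _ _ (h1 ▸ param_shift h hy), scalar_shift, T.scal_chart,
      ((egr n N f V h.isOpen h.contDiffOn h.injective_fderiv).2 _ hy).2, ← hG]
    refine scal_congr ?_
    filter_upwards [(R.c (R.idx q)).open_target.mem_nhds (R.mem_target q)] with y hy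
    exact (T.sub_G hR _ y hy).symm
  · obtain ⟨p, f, V, h, hV, hG, hf⟩ := hR (R.idx q)
    have hy : R.c (R.idx q) q ∈ V := hV ▸ R.mem_target q
    have h1 : f (R.c (R.idx q) q) = q := by
      rw [← hf _ hy, (R.c _).left_inv (R.idx_mem q)]
    have e : (Subtype.val ∘ (R.c (R.idx q)).symm) =ᶠ[𝓝 (R.c (R.idx q) q)] f := by
      filter_upwards [h.isOpen.mem_nhds hy] with z hz using hf z hz
    rw [R208.span_tangentConeAt hS q.2, ← h1, ← R241.D.range_fderiv_eq_Tan h hy, ← e.fderiv_eq]
    rfl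

theorem exists_form (hS : IsSubmanifold n N S) (hc : IsClosed S) {s : Euc N → ℝ}
    (hs : scalarField n N S s) (hb : SpectralScalarBound S n s 1) :
    ∃ M : Imm n (Fin N) S, M.x = Subtype.val ∧ M.Form fun _ => 1 := by
  obtain ⟨M, hx, h1, h2⟩ := exists_imm hS
  have hM : IsClosedEmbedding M.x := hx ▸ hc.isClosedEmbedding_subtypeVal
  have hr : range M.x = S := by rw [hx]; exact Subtype.range_coe
  refine ⟨M, hx, fun z hz => ?_⟩
  obtain ⟨φ, hφ, hcs, e⟩ := exists_amb M hM hz
  obtain ⟨c, hc0, hc⟩ := integral_eq M hM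
  obtain rfl : z = fun p => φ (M.x p) := funext fun p => (e p).symm
  have h3 := mul_le_mul_of_nonneg_left (hb φ hφ hcs) hc0
  rw [one_mul, ← hr, ← hc, ← hc, hr] at h3
  have h4 : ∀ p : S, tangGradSq S φ (M.x p) =
      M.pre.gam (fun p => φ (M.x p)) (fun p => φ (M.x p)) p := fun p => by
    have hxp : M.x p = p := congrFun hx p
    rw [Imm.gam_self_eq, tangGradSq]
    congr 2
    have hd := hφ.differentiable (by simp) (M.x p)
    have h5 : M.grad (fun p => φ (M.x p)) p = M.PL p (gradient φ (M.x p)) := by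
      refine ext_inner_right ℝ fun w => ?_
      rw [← Imm.td_eq_inner, Imm.td_comp (M.sm_x.diffAt p) hd, M.PL_symm, inner_gradient_left]
      rfl
    rw [h5]
    refine Submodule.eq_starProjection_of_mem_of_inner_eq_zero ?_ fun w hw => ?_
    · rw [hxp, h2]; exact Imm.PL_mem_range (M.isChart p) (M.mem p) _
    · rw [hxp, h2] at hw
      obtain ⟨v, rfl⟩ := hw
      rw [real_inner_comm, M.PL_eq]
      exact inner_sub_proj (M.J_inj p) v _
  have h5 : ∀ p : S, s (M.x p) = M.pre.scal p := fun p => by rw [h1 s hs p, hx]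
  simp only [h4, h5] at h3
  have i1 : Integrable (fun p => φ (M.x p) ^ 2) M.mu :=
    Imm.integrable_of_support hz.cs (hz.sm.pow 2).continuous fun p hp => by
      simp [image_eq_zero_of_notMem_tsupport hp]
  have i2 : Integrable (fun p => 4 * M.pre.gam (fun p => φ (M.x p)) (fun p => φ (M.x p)) p +
      M.pre.scal p * φ (M.x p) ^ 2) M.mu :=
    Imm.integrable_of_support hz.cs (((Imm.sm_const 4).mul (hz.sm.gam hz.sm)).add
      (M.sm_scal.mul (hz.sm.pow 2))).continuous fun p hp => by
      simp [image_eq_zero_of_notMem_tsupport hp, Imm.gam_apply, Imm.D_eq_zero_of_notMem hp]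
  rw [← sub_nonneg, ← integral_sub i2 i1] at h3
  refine h3.trans (le_of_eq (integral_congr_ae (Eventually.of_forall fun p => ?_)))
  ring

end Crest.Agent.N228.Br

end
end

-- ▼ part N228/O/Br2
section

/-!
# Row 228, bridge (helper55), part 2: the intrinsic distance; `bridge : BridgeStmt`
-/

set_option autoImplicit false
set_option linter.unusedSectionVars false
open MeasureTheory Set Filter Topology Function
open scoped ContDiff InnerProductSpace RealInnerProductSpace
open Crest.GeometryTopology.Submanifold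

noncomputable section

namespace Crest.Agent.N228.Br
open Crest.Agent.N222 Crest.Agent.R208

variable {n N : ℕ} {X : Type} [TopologicalSpace X] (M : Imm n (Fin N) X)

/-- nearby points are joined by almost straight curves -/
theorem loc_join (p : X) {ε : ℝ} (hε : 0 < ε) : ∃ U ∈ 𝓝 p, ∀ q ∈ U, ∀ q' ∈ U,
    ∃ l, JoinedLen (range M.x) (M.x q) (M.x q') l ∧ l ≤ (1 + ε) * ‖M.x q - M.x q'‖ := by
  obtain ⟨e, L, he, hp, -, h2, h3⟩ := M.exists_proj_chart p
  have h0 : e p = 0 := by rw [h2, sub_self, map_zero]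
  have ht : e.target ∈ 𝓝 (0 : E (Fin n)) := h0 ▸ e.open_target.mem_nhds (e.map_source hp)
  have hc : ContinuousAt (fderiv ℝ (M.x ∘ e.symm)) 0 :=
    (he.sm.continuousOn_fderiv_of_isOpen e.open_target (by simp)).continuousAt ht
  have hL : ‖L.toContinuousLinearMap‖ ≤ 1 := L.norm_toContinuousLinearMap_le
  have h4 : ∀ᶠ z in 𝓝 (0 : E (Fin n)), ‖fderiv ℝ (M.x ∘ e.symm) z‖ < 1 + ε :=
    hc.norm.eventually (gt_mem_nhds (by simp only [h3]; linarith))
  obtain ⟨r, hr, H⟩ := Metric.mem_nhds_iff.1 (inter_mem ht h4)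
  refine ⟨e.source ∩ e ⁻¹' Metric.ball 0 r, (e.isOpen_inter_preimage Metric.isOpen_ball).mem_nhds
    ⟨hp, by rw [mem_preimage, h0]; exact Metric.mem_ball_self hr⟩, fun q hq q' hq' => ?_⟩
  set c : ℝ → E (Fin n) := fun t => e q + stp t • (e q' - e q) with hcd
  have hcm : ∀ t, c t ∈ Metric.ball (0 : E (Fin n)) r := fun t =>
    (convex_ball _ _).add_smul_sub_mem hq.2 hq'.2 (stp_mem t)
  have hcs : ContDiff ℝ ∞ c := contDiff_const.add (stp_contDiff.smul contDiff_const)
  have hγ : ContDiff ℝ ∞ fun t => (M.x ∘ e.symm) (c t) :=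
    he.sm.comp_contDiff hcs fun t => (H (hcm t)).1
  have hd : ∀ t, HasDerivAt stp (deriv stp t) t := fun t =>
    (stp_contDiff.differentiable (by simp) t).hasDerivAt
  refine ⟨_, ⟨_, ⟨hγ, fun t => ⟨_, rfl⟩⟩, ?_, ?_, rfl⟩, ?_⟩
  · simp [hcd, stp_zero, e.left_inv hq.1]
  · simp [hcd, stp_one (t := 1) (by norm_num), e.left_inv hq'.1]
  · have h5 : ‖e q' - e q‖ ≤ ‖M.x q - M.x q'‖ := by
      rw [h2, h2, ← map_sub, sub_sub_sub_cancel_right, norm_sub_rev (M.x q)]
      refine (ContinuousLinearMap.le_opNorm _ _).trans (mul_le_of_le_one_left (norm_nonneg _) ?_)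
      rwa [LinearIsometryEquiv.norm_map]
    have h6 : ∀ t, ‖deriv (fun t => (M.x ∘ e.symm) (c t)) t‖ ≤
        (1 + ε) * ‖M.x q - M.x q'‖ * deriv stp t := fun t => by
      have h7 : HasDerivAt c (deriv stp t • (e q' - e q)) t :=
        ((hd t).smul_const _).const_add _
      have h8 := (he.hasFDerivAt (H (hcm t)).1).comp_hasDerivAt t h7
      rw [show deriv (fun t => (M.x ∘ e.symm) (c t)) t = _ from h8.deriv]
      refine (ContinuousLinearMap.le_opNorm _ _).trans ?_
      have h9 : 0 ≤ deriv stp t := stp_mono.deriv_nonneg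
      rw [norm_smul, Real.norm_of_nonneg h9, mul_assoc, mul_comm ‖M.x q - M.x q'‖]
      exact mul_le_mul (le_of_lt (H (hcm t)).2) (mul_le_mul_of_nonneg_left h5 h9)
        (by positivity) (by positivity)
    have hcd' : Continuous (deriv stp) := stp_contDiff.continuous_deriv (by simp)
    refine (intervalIntegral.integral_mono_on zero_le_one
      ((continuous_norm_deriv hγ).intervalIntegrable _ _)
      ((continuous_const.mul hcd').intervalIntegrable _ _) fun t _ => h6 t).trans (le_of_eq ?_)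
    simp only [Pi.mul_apply]
    rw [intervalIntegral.integral_const_mul, intervalIntegral.integral_eq_sub_of_hasDerivAt
      (fun t _ => hd t) (hcd'.intervalIntegrable _ _), stp_one (by norm_num),
      stp_zero (by norm_num), sub_zero, mul_one]

theorem joined [PreconnectedSpace X] (p q : X) : JoinedS (range M.x) (M.x p) (M.x q) := by
  have h : IsClopen {q | JoinedS (range M.x) (M.x p) (M.x q)} := by
    refine ⟨⟨isOpen_iff_mem_nhds.2 fun q hq => ?_⟩, isOpen_iff_mem_nhds.2 fun q hq => ?_⟩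
    · obtain ⟨U, hU, H⟩ := loc_join M q one_pos
      filter_upwards [hU] with q' hq' h
      obtain ⟨l, hl, -⟩ := H q' hq' q (mem_of_mem_nhds hU)
      exact hq (JoinedS.trans h hl.joined)
    · obtain ⟨U, hU, H⟩ := loc_join M q one_pos
      filter_upwards [hU] with q' hq'
      obtain ⟨l, hl, -⟩ := H q (mem_of_mem_nhds hU) q' hq'
      exact JoinedS.trans hq hl.joined
  have h1 := h.eq_univ ⟨p, (JoinedLen.refl (mem_range_self p)).joined⟩
  exact (h1 ▸ mem_univ q : q ∈ {q | JoinedS (range M.x) (M.x p) (M.x q)})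

theorem loc_dist (p : X) {ε : ℝ} (hε : 0 < ε) : ∃ U ∈ 𝓝 p, ∀ q ∈ U, ∀ q' ∈ U,
    intrinsicDist (range M.x) (M.x q) (M.x q') ≤ (1 + ε) * ‖M.x q - M.x q'‖ := by
  obtain ⟨U, hU, H⟩ := loc_join M p hε
  exact ⟨U, hU, fun q hq q' hq' => let ⟨_, h1, h2⟩ := H q hq q' hq'; (intrinsicDist_le h1).trans h2⟩

/-- the intrinsic metric -/
@[reducible] def met [PreconnectedSpace X] (hM : IsEmbedding M.x) : MetricSpace X :=
  MetricSpace.ofDistTopology (fun p q => intrinsicDist (range M.x) (M.x p) (M.x q))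
    (fun p => intrinsicDist_self ⟨p, rfl⟩) (fun _ _ => intrinsicDist_comm _ _ _)
    (fun p q r => intrinsicDist_triangle (joined M p q) (joined M q r))
    (fun s => by
      rw [isOpen_iff_mem_nhds]
      refine forall₂_congr fun p _ => ⟨fun h => ?_, fun ⟨ε, hε, h⟩ => ?_⟩
      · rw [hM.isInducing.nhds_eq_comap, (Metric.nhds_basis_ball.comap _).mem_iff] at h
        obtain ⟨ε, hε, h⟩ := h
        exact ⟨ε, hε, fun q hq => h (mem_ball_iff_norm.2
          ((chord_le_intrinsicDist (joined M p q)).trans_lt hq))⟩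
      · obtain ⟨U, hU, H⟩ := loc_dist M p one_pos
        have h1 : ∀ᶠ q in 𝓝 p, (1 + 1) * ‖M.x p - M.x q‖ < ε :=
          (continuous_const.mul (continuous_const.sub M.continuous_x).norm).continuousAt.eventually
            (gt_mem_nhds (by simpa using hε))
        filter_upwards [hU, h1] with q hq h2
        exact h q ((H p (mem_of_mem_nhds hU) q hq).trans_lt h2))
    fun p q h => hM.injective (sub_eq_zero.1 (norm_le_zero_iff.1
      (h ▸ chord_le_intrinsicDist (joined M p q)))).symm

theorem dist_le_len {S : Set (Euc N)} {γ : ℝ → Euc N} (h : IsSmoothCurveIn S γ) {s t : ℝ}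
    (hst : s ≤ t) : intrinsicDist S (γ s) (γ t) ≤ len γ s t := by
  have hφ : ContDiff ℝ ∞ fun r : ℝ => s + r * (t - s) := by fun_prop
  have h1 := len_comp h.1 hφ (fun a b hab => by
    have := mul_le_mul_of_nonneg_right hab (sub_nonneg.2 hst)
    linarith) 0 1
  refine intrinsicDist_le ⟨fun r => γ (s + r * (t - s)), ⟨h.1.comp hφ, fun _ => h.2 _⟩, by simp,
    by simp, ?_⟩
  rw [curveLength_eq, h1]
  simp

theorem len_met [PreconnectedSpace X] (hM : IsEmbedding M.x) : @Len n (Fin N) _ X (met M hM) M := by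
  let := met M hM
  refine ⟨fun p q => ?_, fun p ε hε => loc_dist M p hε, fun p q ε hε => ?_⟩
  · rw [norm_sub_rev]; exact chord_le_intrinsicDist (joined M p q)
  · obtain ⟨_, ⟨γ, h1, h2, h3, rfl⟩, h4⟩ := exists_joinedLen_lt (joined M p q)
      (lt_add_of_pos_right _ hε)
    choose c hc using h1.2
    refine ⟨c, len γ 0, hM.continuous_iff.2 ?_, ?_, hM.injective ((hc 0).trans h2),
      hM.injective ((hc 1).trans h3), intervalIntegral.integral_same, h4.le, fun s t _ hst _ => ?_⟩
    · rw [show M.x ∘ c = γ from funext hc]; exact h1.1.continuous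
    · exact intervalIntegral.continuous_primitive
        (fun _ _ => (continuous_norm_deriv h1.1).intervalIntegrable _ _) 0
    · change intrinsicDist _ _ _ ≤ _
      rw [hc, hc, ← len_add h1.1 0 s t, add_sub_cancel_left]
      exact dist_le_len h1 hst

theorem proper_met [PreconnectedSpace X] (hM : IsClosedEmbedding M.x) :
    @ProperSpace X (met M hM.isEmbedding).toPseudoMetricSpace := by
  let := met M hM.isEmbedding
  refine ⟨fun p r => (hM.isCompact_preimage (isCompact_closedBall (M.x p) r)).of_isClosed_subset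
    Metric.isClosed_closedBall fun q hq => ?_⟩
  exact mem_closedBall_iff_norm.2 (((len_met M hM.isEmbedding).chord q p).trans hq)

end Br

theorem bridge : BridgeStmt := by
  intro n N S hS hc hconn s hs hb
  obtain ⟨M, hx, hF⟩ := Br.exists_form hS hc hs hb
  have := isConnected_iff_connectedSpace.1 hconn
  have hM : IsClosedEmbedding M.x := hx ▸ hc.isClosedEmbedding_subtypeVal
  have hr : range M.x = S := by rw [hx]; exact Subtype.range_coe
  exact ⟨S, Br.met M hM.isEmbedding, Br.proper_met M hM, inferInstance, inferInstance, this, M,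
    hM.isEmbedding, hr, Br.len_met M hM.isEmbedding, hF, fun p q =>
      congrArg (intrinsicDist · (M.x p) (M.x q)) hr⟩

end Crest.Agent.N228

end
end

-- ▼ part N228/O/Nerve

/-!
# Row 228, outer layer: the nerve map and the priority rule (helper33)
-/

set_option autoImplicit false
open Set Filter Topology Function

noncomputable section

namespace Crest.Agent.N228

theorem sign : SignStmt := by
  intro X _ k C s hc hlf hcov hz hd
  refine ⟨ℕ, fun c => {p | 0 ≤ s c p} ∩ ⋂ c' ∈ Iio c, {p | s c' p ≤ 0}, fun c => ?_, ?_, fun p => ?_,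
    fun p t ht => ?_, fun c p hp q hq => hd c p q hp.1 hq.1⟩
  · exact (isClosed_le continuous_const (hc c)).inter
      (isClosed_biInter fun c' _ => isClosed_le (hc c') continuous_const)
  · exact hlf.subset fun c => inter_subset_left
  · classical
    refine ⟨Nat.find (hcov p), (Nat.find_spec (hcov p)).le, mem_iInter₂.2 fun c' hc' => ?_⟩
    exact not_lt.1 (Nat.find_min (hcov p) hc')
  · rcases t.eq_empty_or_nonempty with rfl | hne
    · simp
    have h1 : (t.erase (t.max' hne)).card ≤ k := by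
      refine hz p _ fun c hcm => ?_
      have hlt : c < t.max' hne := Finset.lt_max'_of_mem_erase_max' t hne hcm
      exact le_antisymm (mem_iInter₂.1 (ht _ (t.max'_mem hne)).2 c hlt)
        (ht c (Finset.mem_of_mem_erase hcm)).1
    rw [Finset.card_erase_of_mem (t.max'_mem hne)] at h1
    omega

namespace Nv

variable {X : Type} [MetricSpace X] {κ : Type}

open Classical in
/-- distance to a set, `ε` for the empty set -/
def dd (ε : ℝ) (A : Set X) (p : X) : ℝ := if A.Nonempty then Metric.infDist p A else ε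

theorem dd_nonneg {ε : ℝ} (hε : 0 < ε) (A : Set X) (p : X) : 0 ≤ dd ε A p := by
  unfold dd; split_ifs
  · exact Metric.infDist_nonneg
  · exact hε.le

theorem dd_le (ε : ℝ) (A : Set X) (p q : X) : dd ε A p ≤ dd ε A q + dist p q := by
  unfold dd; split_ifs
  · exact Metric.infDist_le_infDist_add_dist
  · linarith [dist_nonneg (x := p) (y := q)]

theorem dd_cont (ε : ℝ) (A : Set X) : Continuous (dd ε A) := by
  unfold dd; split_ifs
  · exact Metric.continuous_infDist_pt A
  · exact continuous_const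

theorem dd_mem {ε : ℝ} {A : Set X} {p : X} (hp : p ∈ A) : dd ε A p = 0 := by
  unfold dd; rw [if_pos ⟨p, hp⟩]; exact Metric.infDist_zero_of_mem hp

theorem dd_lt {ε t : ℝ} {A : Set X} {p : X} (h : dd ε A p < t) (ht : t ≤ ε) :
    ∃ a ∈ A, dist p a < t := by
  unfold dd at h; split_ifs at h with hA
  · exact (Metric.infDist_lt_iff hA).1 h
  · linarith

/-- admissible radii -/
def Rad (ε : ℝ) (k : ℕ) (A : κ → Set X) (p : X) : Set ℝ :=
  {t | t ≤ ε / 2 ∧ ∀ s : Finset κ, (∀ i ∈ s, dd ε (A i) p < t) → s.card ≤ k + 1}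

/-- the largest admissible radius -/
def mm (ε : ℝ) (k : ℕ) (A : κ → Set X) (p : X) : ℝ := sSup (Rad ε k A p)

variable {ε : ℝ} {k : ℕ} {A : κ → Set X}

theorem bdd (p : X) : BddAbove (Rad ε k A p) := ⟨ε / 2, fun _ ht => ht.1⟩

theorem zero_mem (hε : 0 < ε) (p : X) : (0 : ℝ) ∈ Rad ε k A p := by
  refine ⟨by positivity, fun s hs => ?_⟩
  rcases s.eq_empty_or_nonempty with rfl | ⟨i, hi⟩
  · simp
  · exact absurd (hs i hi) (not_lt.2 (dd_nonneg hε _ _))

theorem mm_le (hε : 0 < ε) (p : X) : mm ε k A p ≤ ε / 2 :=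
  csSup_le ⟨0, zero_mem hε p⟩ fun _ ht => ht.1

theorem mm_lip (hε : 0 < ε) (p q : X) : mm ε k A p ≤ mm ε k A q + dist p q := by
  refine csSup_le ⟨0, zero_mem hε p⟩ fun t ht => ?_
  have h : t - dist p q ∈ Rad ε k A q := by
    refine ⟨by linarith [ht.1, dist_nonneg (x := p) (y := q)], fun s hs => ht.2 s fun i hi => ?_⟩
    linarith [hs i hi, dd_le ε (A i) p q]
  linarith [le_csSup (bdd q) h, show mm ε k A q = sSup (Rad ε k A q) from rfl]

theorem mm_cont (hε : 0 < ε) : Continuous (mm ε k A) := by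
  refine (LipschitzWith.of_dist_le_mul (K := 1) fun p q => ?_).continuous
  rw [Real.dist_eq, abs_le]
  have h1 := mm_lip (k := k) (A := A) hε p q
  have h2 := mm_lip (k := k) (A := A) hε q p
  rw [dist_comm] at h2
  constructor <;> simp <;> linarith

theorem mm_card (hε : 0 < ε) (p : X) (s : Finset κ) (hs : ∀ i ∈ s, dd ε (A i) p < mm ε k A p) :
    s.card ≤ k + 1 := by
  rcases s.eq_empty_or_nonempty with rfl | hne
  · simp
  obtain ⟨j, hj, hmax⟩ := s.exists_max_image (fun i => dd ε (A i) p) hne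
  obtain ⟨t, ht, hlt⟩ := exists_lt_of_lt_csSup ⟨0, zero_mem hε p⟩ (hs j hj)
  exact ht.2 s fun i hi => (hmax i hi).trans_lt hlt

theorem mm_fin (hε : 0 < ε) (p : X) : {i | dd ε (A i) p < mm ε k A p}.Finite := by
  by_contra h
  obtain ⟨s, hs, hc⟩ := Set.Infinite.exists_subset_card_eq h (k + 2)
  have := mm_card hε p s fun i hi => hs hi
  omega

theorem mm_pos (hε : 0 < ε) (hcl : ∀ i, IsClosed (A i)) (hlf : LocallyFinite A)
    (hm : ∀ p (s : Finset κ), (∀ i ∈ s, p ∈ A i) → s.card ≤ k + 1) (p : X) : 0 < mm ε k A p := by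
  obtain ⟨r, hr, hb⟩ := Metric.mem_nhds_iff.1 (hlf.iInter_compl_mem_nhds hcl p)
  have h : min r (ε / 2) ∈ Rad ε k A p := by
    refine ⟨min_le_right _ _, fun s hs => hm p s fun i hi => ?_⟩
    obtain ⟨a, ha, hd⟩ := dd_lt (hs i hi) ((min_le_right _ _).trans (by linarith))
    by_contra hp
    have : a ∈ Metric.ball p r := by
      rw [Metric.mem_ball, dist_comm]; exact hd.trans_le (min_le_left _ _)
    exact mem_iInter₂.1 (hb this) i hp ha
  exact (lt_min hr (by positivity)).trans_le (le_csSup (bdd p) h)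

/-- the weights -/
def ww (ε : ℝ) (k : ℕ) (A : κ → Set X) (i : κ) (p : X) : ℝ :=
  max (mm ε k A p / 2 - dd ε (A i) p) 0

theorem ww_nonneg (i : κ) (p : X) : 0 ≤ ww ε k A i p := le_max_right _ _

theorem ww_cont (hε : 0 < ε) (i : κ) : Continuous (ww ε k A i) :=
  (((mm_cont hε).div_const 2).sub (dd_cont ε _)).max continuous_const

theorem ww_ne {i : κ} {p : X} (h : ww ε k A i p ≠ 0) : dd ε (A i) p < mm ε k A p / 2 := by
  by_contra hn
  exact h (max_eq_right (by linarith [not_lt.1 hn]))

theorem ww_lf (hε : 0 < ε) (hpos : ∀ p, 0 < mm ε k A p) :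
    LocallyFinite fun i => support (ww ε k A i) := by
  intro p
  refine ⟨Metric.ball p (mm ε k A p / 4), Metric.ball_mem_nhds p (by linarith [hpos p]),
    (mm_fin (k := k) (A := A) hε p).subset ?_⟩
  rintro i ⟨q, hq, hb⟩
  have h1 := ww_ne hq
  have h2 := dd_le ε (A i) p q
  have h3 := mm_lip (k := k) (A := A) hε q p
  have h4 : dist q p < mm ε k A p / 4 := hb
  rw [dist_comm] at h2
  show dd ε (A i) p < mm ε k A p
  linarith [hpos p]

end Nv

open Nv in
theorem nerve : NerveStmt := by
  intro X _ k C ε hε ⟨κ, A, hcl, hlf, hcov, hm, hd⟩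
  have hpos := mm_pos hε hcl hlf hm
  have hl := ww_lf hε hpos
  have hfin : ∀ p, (support fun i => ww ε k A i p).Finite := fun p => hl.point_finite p
  have hw : ∀ p i, p ∈ A i → 0 < ww ε k A i p := fun p i hi => by
    unfold ww; rw [dd_mem hi]; exact lt_max_of_lt_left (by linarith [hpos p])
  have hW : ∀ p, 0 < ∑ᶠ i, ww ε k A i p := fun p => by
    obtain ⟨i, hi⟩ := hcov p
    exact finsum_pos (fun j => ww_nonneg j p) ⟨i, hw p i hi⟩ (hfin p)
  refine ⟨κ, {σ | σ.Nonempty ∧ σ.card ≤ k + 1}, fun p i => ww ε k A i p / ∑ᶠ j, ww ε k A j p,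
    ⟨fun _ h => h.1, fun _ h => h.2, fun σ h τ hτ hn => ⟨hn, (Finset.card_le_card hτ).trans h.2⟩,
      fun v => ⟨Finset.singleton_nonempty v, by simp⟩⟩, ?_, fun p => ?_, fun p q hpq => ?_⟩
  · exact continuous_pi fun i =>
      (ww_cont hε i).div (continuous_finsum (ww_cont hε) hl) fun p => (hW p).ne'
  · refine ⟨fun v => div_nonneg (ww_nonneg v p) (hW p).le, (hfin p).toFinset, ⟨?_, ?_⟩, ?_, ?_⟩
    · obtain ⟨i, hi⟩ := hcov p
      exact ⟨i, (hfin p).mem_toFinset.2 (hw p i hi).ne'⟩
    · refine mm_card (A := A) hε p _ fun i hi => ?_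
      have := ww_ne ((hfin p).mem_toFinset.1 hi)
      linarith [hpos p]
    · intro v hv
      have : ww ε k A v p = 0 := by
        by_contra h
        exact hv ((hfin p).mem_toFinset.2 h)
      simp [this]
    · rw [← Finset.sum_div, ← finsum_eq_sum _ (hfin p)]
      exact div_self (hW p).ne'
  · obtain ⟨i, hi⟩ := hcov p
    have h1 : 0 < ww ε k A i q / ∑ᶠ j, ww ε k A j q := by
      have := congrFun hpq i
      simp only at this
      rw [← this]
      exact div_pos (hw p i hi) (hW p)
    have h2 : ww ε k A i q ≠ 0 := by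
      intro h; rw [h, zero_div] at h1; exact lt_irrefl _ h1
    have h3 := mm_le (k := k) (A := A) hε q
    obtain ⟨a, ha, hda⟩ := dd_lt (ww_ne h2) (by linarith)
    have h4 := hd i p hi a ha
    have h5 := dist_triangle_right p q a
    linarith

end Crest.Agent.N228

end
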